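import Vale.Agent.Lib.P190.Quadratic

namespace Vale.Agent.Results.P190.QuadraticCover

open IsLocalRing RingTheory.Sequence

universe u

/-- Small Cohen-Macaulay modules for generically quadratic covers.

`A` is a Noetherian local unique factorization domain in which `2` is a unit and which has a
regular sequence of length `dim A` in its maximal ideal (so `A` is Cohen-Macaulay); `K` is its
fraction field. `R` is a local domain, module-finite over `A`, with fraction field `L` of degree
two over `K`. Then there is a finitely generated `R`-module `M` with an `M`-regular sequence of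
length `dim R` contained in the maximal ideal of `R`, that is, a small Cohen-Macaulay module
over `R`. -/
theorem result (A R K L : Type u) [CommRing A] [IsDomain A] [IsLocalRing A]
    [IsNoetherianRing A] [UniqueFactorizationMonoid A]
    [CommRing R] [IsDomain R] [IsLocalRing R] [Algebra A R] [Module.Finite A R]
    [Field K] [Field L] [Algebra A K] [IsFractionRing A K] [Algebra R L] [IsFractionRing R L]
    [Algebra K L] [Algebra A L] [IsScalarTower A K L] [IsScalarTower A R L]
    (h2 : IsUnit (2 : A)) (hdeg : Module.finrank K L = 2)
    (hCM : ∃ rs : List A, (∀ r ∈ rs, r ∈ maximalIdeal A) ∧ IsRegular A rs ∧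
      (rs.length : WithBot ℕ∞) = ringKrullDim A) :
    ∃ (M : Type u) (_ : AddCommGroup M) (_ : Module R M), Module.Finite R M ∧
      ∃ rs' : List R, (∀ r ∈ rs', r ∈ maximalIdeal R) ∧ IsRegular M rs' ∧
        (rs'.length : WithBot ℕ∞) = ringKrullDim R := by
  obtain ⟨rs, hmem, hreg, hlen⟩ := hCM
  exact Vale.Agent.Lib.P190.quadratic_cover A R K L h2 hdeg rs hmem hreg hlen

end Vale.Agent.Results.P190.QuadraticCover
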